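import Vale.Agent.P186W94.Main

/-!
P186, question Q1 with the Cayley graph as a metric space in which each edge has length 1.
-/

open Vale.Agent.P186W94

theorem Vale.Agent.Results.P186.AMetricCayley.result :
    -- (1) not every word-hyperbolic group is residually finite
    (¬ ∀ (G : Type) [Group G], WordHyperbolic G → ResFinite G) ∧
    -- (2) a torsion-free example, with thin triangles for every finite generating set
    (∃ (G : Type) (_ : Group G), (∀ g : G, ∀ m : ℕ, 0 < m → g ^ m = 1 → g = 1) ∧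
      WordHyperbolic G ∧ ¬ ResFinite G ∧
      (∃ S : Finset G, Subgroup.closure (S : Set G) = ⊤ ∧ ∀ s ∈ S, s⁻¹ ∉ S) ∧
      ∀ S : Finset G, Subgroup.closure (S : Set G) = ⊤ →
        (SimpleGraph.mulCayley (S : Set G)).Connected ∧ ∃ δ : ℝ, 0 ≤ δ ∧ Thin (Cayley S) δ) ∧
    -- (3) the metric graph of a connected graph
    ∀ (V : Type) (Γ : SimpleGraph V), Γ.Connected → GeodesicSpace (MetricGraph Γ) ∧
      (∀ u v, edist (vertex Γ u) (vertex Γ v) = (Γ.dist u v : ENNReal)) ∧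
      (∀ (x y : MetricGraph Γ) (u v : V) (s t : ℝ), Γ.Adj u v → s ∈ Set.Icc (0 : ℝ) 1 →
        t ∈ Set.Icc (0 : ℝ) 1 → x.1 = bary u v s → y.1 = bary u v t →
        edist x y = ENNReal.ofReal |s - t|) ∧
      ((∃ δ : ℝ, 0 ≤ δ ∧ Thin (MetricGraph Γ) δ) ↔
        ∃ δ : ℕ, Vale.Agent.P186.ThinTriangles Γ δ) :=
  ⟨fun h => let ⟨G, _, _, a, b, _⟩ := group; b (h G a), group, fun _ _ hc =>
    ⟨geodesicSpace hc, edist_vertex hc, fun _ _ _ _ _ _ => edist_edge, thin_iff hc⟩⟩
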